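import Vale.Agent.P167.H627.ErrB

/-!
# P167, `0 < q < 1`, [GEO]: the error terms

`kx_lo`, `kx_up`: the errors of `frz_lo`, `frz_up` with `Z` frozen. `pc_arm`: the arm of `t`.
-/

set_option autoImplicit false

namespace Vale.Agent.P167.H627

open Finset Relation Vale.Agent.P167.FK Vale.Agent.P167.FKA Vale.Agent.P167.H364
open Vale.Agent.P145.FB (PStep)
open Vale.Agent.P167.H259 (f_markov Ex_out)
open Vale.Agent.P167.H635 (mem_Bq bq_mono shp_ge2)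
open Vale.Agent.P167.H72.SD (NSup)

variable {Q : ℝ} {D D' Dc B Bx Z S H : Finset (ℤ × ℤ)} {η η' ζ ω : Cfg} {t b s s' w v a : ℤ × ℤ}
  {g r R : ℤ} {F : Set (ℤ × ℤ)}

/-- The first hit of the sites of `H`: the steps before do not use squares of `H`. -/
theorem first_hit (h : ReflTransGen (PStep F) s s') (hs : s' ∈ BR.sites H) :
    ∃ u ∈ BR.sites H, ReflTransGen (PStep {v | v ∈ F ∧ v ∉ H}) s u := by
  induction h using ReflTransGen.head_induction_on with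
  | refl => exact ⟨s', hs, ReflTransGen.refl⟩
  | @head x y hxy _ ih =>
    by_cases hx : x ∈ BR.sites H
    · exact ⟨x, hx, ReflTransGen.refl⟩
    · obtain ⟨u, hu, h1⟩ := ih
      refine ⟨u, hu, ReflTransGen.head ⟨hxy.1, hxy.2.1, hxy.2.2, fun h2 => hx ?_⟩ h1⟩
      exact BR.mem_sites.2 ⟨_, h2, (cor_of_step hxy).1⟩

/-- The exit of the set `H`. -/
theorem exit_of (h : ReflTransGen (PStep F) s s') :
    (ReflTransGen (PStep {v | v ∈ F ∧ v ∈ H}) s s') ∨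
      ∃ u w, ReflTransGen (PStep {v | v ∈ F ∧ v ∈ H}) s u ∧ w ∈ F ∧ w ∉ H ∧ Cor w u := by
  induction h with
  | refl => exact Or.inl ReflTransGen.refl
  | @tail x y _ hxy ih =>
    rcases ih with ih | ih
    · by_cases hm : (min x.1 y.1, min x.2 y.2) ∈ H
      · exact Or.inl (ih.tail ⟨hxy.1, hxy.2.1, hxy.2.2, hm⟩)
      · exact Or.inr ⟨x, _, ih, hxy.2.2, hm, (cor_of_step hxy).1⟩
    · exact Or.inr ih

/-- The end of a path is a corner of a square of the set. -/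
theorem end_cor (h : ReflTransGen (PStep F) s s') : s = s' ∨ ∃ v ∈ F, Cor v s' := by
  rcases h.cases_tail with h1 | ⟨u, _, h1⟩
  · exact Or.inl h1.symm
  · exact Or.inr ⟨_, h1.2.2, (cor_of_step h1).2⟩

/-- The explored sites are joined to `B`. -/
theorem kx_path {c : Bool} {par : ℤ} {F : Set (ℤ × ℤ)} (h : Kx c par D B F ω s) :
    ∃ s₀, (∃ v ∈ B, Cor v s₀) ∧ (s₀.1 + s₀.2) % 2 = par ∧
      ReflTransGen (PStep {v | v ∈ D ∧ ω v = c}) s₀ s := by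
  induction h with
  | @base s v h1 h2 h3 => exact ⟨s, ⟨v, h1, h2⟩, h3, ReflTransGen.refl⟩
  | @step s s' v h1 h2 h3 h4 h5 h6 h7 ih =>
    obtain ⟨s₀, i1, i2, i3⟩ := ih
    by_cases hne : s = s'
    · subst hne
      exact ⟨s₀, i1, i2, i3⟩
    · refine ⟨s₀, i1, i2, i3.tail ?_⟩
      have h8 := h1.mod
      exact Vale.Agent.P145.FB.step_of_corners (m := v.1) (n := v.2) (e := par)
        (show (v.1, v.2) ∈ {v | v ∈ D ∧ ω v = c} from ⟨h3, h4⟩) h5.1 h5.2 h6.1 h6.2 h8 h7 hne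

/-- **The error of the lower bound.** -/
theorem kx_lo (hQ : N.Kit Q) : ∃ L : ℤ, 1 ≤ L ∧ ∀ (D : Finset (ℤ × ℤ)) (η : Cfg)
    (t : ℤ × ℤ) (g r : ℤ) (Z : Finset (ℤ × ℤ)), FlZ D η t g r Z → 1 ≤ r → L * r ≤ g →
    ∀ (B Bx : Finset (ℤ × ℤ)) (Y : Set (ℤ × ℤ)), B ⊆ D \ Z → Bq t g ⊆ Bx →
      (∀ s ∈ Y, s ∈ BR.sites Bx) →
      Pr Q (D \ Z) (opn Z η)
          {ω | ¬ ∀ s, Kx false 1 (D \ Z) B (Fc (D \ Z) (opn Z η)) ω s → s ∉ Y} ≤
        8 * Pr Q D η (NSup D B Bx) := by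
  obtain ⟨L, hL1, hL⟩ := chg hQ
  refine ⟨L, hL1, ?_⟩
  intro D η t g r Z h hr hg B Bx Y hB hBx hY
  set E : Set Cfg := {ω | ∃ s u : ℤ × ℤ, (∃ v ∈ B, Cor v s) ∧ (s.1 + s.2) % 2 = 1 ∧
    u ∈ BR.sites Bx ∧ ReflTransGen (PStep {v | v ∈ D ∧ ω v = false ∧ v ∉ Bx}) s u} with hE
  have hEi : Ind (D ∩ Bq t g) (E.indicator 1) := by
    intro ω ω' hw
    refine ind_congr ?_
    have e : {v | v ∈ D ∧ ω v = false ∧ v ∉ Bx} = {v | v ∈ D ∧ ω' v = false ∧ v ∉ Bx} := by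
      ext v
      constructor
      · rintro ⟨h1, h2, h3⟩
        refine ⟨h1, ?_, h3⟩
        rw [← hw v fun h4 => h3 (hBx (mem_inter.1 h4).2)]
        exact h2
      · rintro ⟨h1, h2, h3⟩
        refine ⟨h1, ?_, h3⟩
        rw [hw v fun h4 => h3 (hBx (mem_inter.1 h4).2)]
        exact h2
    show (∃ s u : ℤ × ℤ, _) ↔ (∃ s u : ℤ × ℤ, _)
    rw [e]
  have h1 : Pr Q (D \ Z) (opn Z η)
      {ω | ¬ ∀ s, Kx false 1 (D \ Z) B (Fc (D \ Z) (opn Z η)) ω s → s ∉ Y} ≤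
      Pr Q (D \ Z) (opn Z η) E := by
    refine Pr_mono hQ.pos fun ω hω => ?_
    simp only [Set.mem_ofPred_eq] at hω
    push Not at hω
    obtain ⟨s, hs, hsY⟩ := hω
    obtain ⟨s₀, i1, i2, i3⟩ := kx_path hs
    obtain ⟨u, j1, j2⟩ := first_hit i3 (hY s hsY)
    refine ⟨s₀, u, i1, i2, j1, ReflTransGen.mono (fun x y hxy => ?_) _ _ j2⟩
    exact ⟨hxy.1, hxy.2.1, (mem_sdiff.1 hxy.2.2.1.1).1, hxy.2.2.1.2, hxy.2.2.2⟩
  have h2 : Pr Q D η E ≤ Pr Q D η (NSup D B Bx) := by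
    refine Pr_mono hQ.pos fun ω hω => ?_
    obtain ⟨s, u, i1, i2, i3, i4⟩ := hω
    refine ⟨s, u, i1, i2, i3, ReflTransGen.mono (fun x y hxy => ?_) _ _ i4⟩
    exact ⟨hxy.1, hxy.2.1, hxy.2.2.1, hxy.2.2.2.1⟩
  have h3 := hL D η t g r Z h hr hg (E.indicator 1) (fun _ => ind_nonneg _ _) hEi
  change Pr Q (D \ Z) (opn Z η) E ≤ 8 * Pr Q D η E at h3
  linarith

/-- A visible site of the boundary of the half box is on its outer boundary. -/
theorem out_bd (hs : ∃ v ∈ HBt t g, Cor v s) (hw : Cor w s) (hw2 : t.2 ≤ w.2) (hwH : w ∉ HBt t g) :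
    s.1 = t.1 - g ∨ s.1 = t.1 + g ∨ s.2 = t.2 + g := by
  obtain ⟨v, hv, h1⟩ := hs
  rw [mem_HBt] at hv hwH
  unfold Cor at h1 hw
  omega

theorem arm_loc : Loc (HBt t g) ((ArmT t g).indicator (1 : Cfg → ℝ)) := by
  intro ω ω' hw
  refine ind_congr ?_
  have e : {v | v ∈ HBt t g ∧ ω v = true} = {v | v ∈ HBt t g ∧ ω' v = true} := by
    ext v
    constructor
    · rintro ⟨h1, h2⟩
      exact ⟨h1, by rw [← hw v h1]; exact h2⟩
    · rintro ⟨h1, h2⟩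
      exact ⟨h1, by rw [hw v h1]; exact h2⟩
  show (∃ s : ℤ × ℤ, _) ↔ (∃ s : ℤ × ℤ, _)
  rw [e]

/-- **The arm, conditionally on the squares off the half box.** -/
theorem arm_ex (hQ : 0 < Q) (h : FlZ D η t g r Z) (hr : r ≤ g) {π : ℝ} (hπ : ArmB Q t g Z π)
    {G : Cfg → ℝ} (hG0 : ∀ ω, 0 ≤ G ω) (hG : Ind (HBt t g \ Z) G) :
    Ex Q (D \ Z) (opn Z η) (fun ω => G ω * (ArmT t g).indicator 1 ω) ≤
      π * Ex Q (D \ Z) (opn Z η) G := by
  have hsub : HBt t g \ Z ⊆ D \ Z := by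
    refine sdiff_subset_sdiff (fun v hv => ?_) subset_rfl
    rw [← h.inter] at hv
    exact (mem_inter.1 hv).1
  rw [markov f_markov hQ hsub (good_opn h.good) hG, ← Ex_mul_left]
  refine Ex_mono hQ fun S _ => ?_
  rw [mul_comm π]
  refine mul_le_mul_of_nonneg_left ?_ (hG0 _)
  have h1 := hπ (cf (D \ Z) (opn Z η) S) (good_cf _ (good_opn h.good) S) (fun x hx1 hx2 => by
    have h2 : (x, t.2 - 1) ∈ Bq t (g + 2) := by
      rw [mem_Bq]
      simp only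
      have h0 : t ∈ Z := h.low (mem_hbox'.2 ⟨by omega, by omega, by omega, by omega⟩)
      have h9 := mem_hbox'.1 (h.sub h0)
      omega
    have h3 : (x, t.2 - 1) ∉ D := fun hD => by
      have := (h.dom _ h2).1 hD
      simp only at this
      omega
    have h4 : (x, t.2 - 1) ∉ Z := fun hZ => by
      have := (mem_hbox'.1 (h.sub hZ)).2.2.1
      simp only at this
      omega
    rw [cf_out fun h5 => h3 (mem_sdiff.1 h5).1, opn_false]
    exact ⟨h4, h.cl _ h2 (by simp only; omega)⟩)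
  refine le_trans (le_of_eq ?_) h1
  refine Ex_out (fun v hv => ?_) _
  by_cases hvZ : v ∈ Z
  · rw [cf_out fun h5 => (mem_sdiff.1 h5).2 hvZ]
    simp [opn, hvZ]
  · simp [opn, hvZ]

/-- A path from `Z` which leaves the half box makes an arm of `t`. -/
theorem arm_of_path (h : FlZ D η t g r Z) (hr : r ≤ g) {ω : Cfg} (hZo : ∀ v ∈ Z, ω v = true)
    (hlow : ∀ v ∈ Bq t (g + 2), v.2 < t.2 → ω v = false)
    (hs : ∃ v ∈ Z, Cor v s) (hse : (s.1 + s.2) % 2 = 0) (hv : s = t ∨ Vis t Z s)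
    {F : Set (ℤ × ℤ)} (hF : ∀ v ∈ F, ω v = true)
    (hp : ReflTransGen (PStep F) s s')
    (hs' : (∃ w : ℤ × ℤ, w ∉ HBt t g ∧ (w ∈ Bq t (g + 2) → t.2 ≤ w.2) ∧ Cor w s') ∨
      t.1 + g ≤ s'.1) : ω ∈ ArmT t g := by
  have hZH := h.ZH hr
  -- `t` to `s`
  have h1 : ReflTransGen (PStep {v | v ∈ HBt t g ∧ ω v = true}) t s := by
    rcases hv with hv | ⟨w, h1, h2, h3⟩
    · rw [hv]
    · refine ReflTransGen.mono (fun x y hxy => ?_) _ _ (h.co s hse hs ⟨w, h1, h2, h3⟩)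
      exact ⟨hxy.1, hxy.2.1, hZH (mem_coe.1 hxy.2.2), hZo _ (mem_coe.1 hxy.2.2)⟩
  have hcor : ∀ u, ReflTransGen (PStep {v | v ∈ F ∧ v ∈ HBt t g}) s u → ∃ v ∈ HBt t g, Cor v u := by
    intro u hu
    rcases end_cor hu with h2 | ⟨v, h2, h3⟩
    · obtain ⟨v, h3, h4⟩ := hs
      exact ⟨v, hZH h3, by rw [← h2]; exact h4⟩
    · exact ⟨v, h2.2, h3⟩
  have hmono : ∀ u, ReflTransGen (PStep {v | v ∈ F ∧ v ∈ HBt t g}) s u →
      ReflTransGen (PStep {v | v ∈ HBt t g ∧ ω v = true}) t u := by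
    intro u hu
    refine h1.trans (ReflTransGen.mono (fun x y hxy => ?_) _ _ hu)
    exact ⟨hxy.1, hxy.2.1, hxy.2.2.2, hF _ hxy.2.2.1⟩
  rcases exit_of (H := HBt t g) hp with h2 | ⟨u, w, h2, h3, h4, h5⟩
  · refine ⟨s', ?_, hmono s' h2⟩
    rcases hs' with ⟨w, k1, k2, k3⟩ | hs'
    · exact out_bd (hcor s' h2) k3 (k2 (near_HBt (hcor s' h2) k3)) k1
    · obtain ⟨v, k1, k2⟩ := hcor s' h2
      rw [mem_HBt] at k1
      unfold Cor at k2
      omega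
  · refine ⟨u, out_bd (hcor u h2) h5 ?_ h4, hmono u h2⟩
    by_contra hc
    have h6 := hlow w (near_HBt (hcor u h2) h5) (by omega)
    rw [hF w h3] at h6
    exact absurd h6 (by simp)

/-- `t` is a corner of `Z`. -/
theorem _root_.Vale.Agent.P167.H364.FlZ.tZ (h : FlZ D η t g r Z) : ∃ v ∈ Z, Cor v t :=
  ⟨t, h.low (mem_hbox'.2 (by omega)), Or.inl rfl, Or.inl rfl⟩

/-- The configuration of the frozen domain is closed below the line. -/
theorem low_cf (h : FlZ D η t g r Z) (S : Finset (ℤ × ℤ)) : ∀ v ∈ Bq t (g + 2), v.2 < t.2 →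
    cf (D \ Z) (opn Z η) S v = false := by
  intro v hv hv2
  have h3 : v ∉ D := fun hD => by
    have := (h.dom _ hv).1 hD
    omega
  have h4 : v ∉ Z := fun hZ => by
    have := (mem_hbox'.1 (h.sub hZ)).2.2.1
    omega
  rw [cf_out fun h5 => h3 (mem_sdiff.1 h5).1, opn_false]
  exact ⟨h4, h.cl _ hv hv2⟩

theorem open_cf (S : Finset (ℤ × ℤ)) : ∀ v ∈ Z, cf (D \ Z) (opn Z η) S v = true := by
  intro v hv
  rw [cf_out fun h5 => (mem_sdiff.1 h5).2 hv]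
  simp [opn, hv]

/-- The connection of `t` to a far site needs an arm. -/
theorem pc_arm (hQ : 0 < Q) (h : FlZ D η t g r Z) (hr : r + 4 ≤ g) {b : ℤ × ℤ}
    (hb : t.1 + g ≤ b.1) {π : ℝ} (hπ : ArmB Q t g Z π) :
    Pr Q (D \ Z) (opn Z η) {ω | PC ω t b} ≤ π := by
  have h1 := arm_ex hQ h (by omega) hπ (G := fun _ => 1) (fun _ => zero_le_one) fun _ _ _ => rfl
  rw [Ex_const hQ, mul_one] at h1
  simp only [one_mul] at h1
  refine le_trans (Ex_mono hQ fun S _ => ?_) h1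
  refine H519.ind_le_of_imp fun hp => ?_
  have hte : (t.1 + t.2) % 2 = 0 := Int.even_iff.1 h.even
  exact arm_of_path h (by omega) (open_cf S) (low_cf h S) h.tZ hte (Or.inl rfl)
    (F := op (cf (D \ Z) (opn Z η) S)) (fun v hv => hv) hp (Or.inr hb)

/-- **The error of the upper bound.** -/
theorem kx_up (hQ : N.Kit Q) : ∃ L : ℤ, 1 ≤ L ∧ ∀ (D : Finset (ℤ × ℤ)) (η : Cfg)
    (t : ℤ × ℤ) (g r : ℤ) (Z : Finset (ℤ × ℤ)), FlZ D η t g r Z → 1 ≤ r → L * r ≤ g →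
    ∀ (B : Finset (ℤ × ℤ)) (U : Set (ℤ × ℤ)) (π : ℝ), B ⊆ D \ Z → Disjoint B (HBt t g) →
      (∀ s ∈ U, Even (s.1 + s.2) → (∃ x ∈ D \ Z, Cor x s) → s ∈ BR.sites Z) → ArmB Q t g Z π →
      Pr Q (D \ Z) (opn Z η)
          {ω | ∃ s, Kx true 0 (D \ Z) B (H364.Wc (D \ Z) (opn Z η)) ω s ∧ s ∈ U} ≤
        8 * π * Pr Q D η (NOut D B (HBt t g)) := by
  obtain ⟨L, hL1, hL⟩ := chg hQ
  refine ⟨L, hL1, ?_⟩
  intro D η t g r Z h hr hg B U π hB hBH hU hπ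
  have hrg : r ≤ g := by
    calc r = 1 * r := (one_mul r).symm
      _ ≤ L * r := mul_le_mul_of_nonneg_right hL1 (by omega)
      _ ≤ g := hg
  set E : Set Cfg := NOut D B (HBt t g) with hE
  have hEi : Ind (HBt t g) (E.indicator 1) := by
    intro ω ω' hw
    refine ind_congr ?_
    have e : {v | v ∈ D ∧ v ∉ HBt t g ∧ ω v = true} = {v | v ∈ D ∧ v ∉ HBt t g ∧ ω' v = true} := by
      ext v
      constructor
      · rintro ⟨h1, h2, h3⟩
        refine ⟨h1, h2, ?_⟩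
        rw [← hw v h2]
        exact h3
      · rintro ⟨h1, h2, h3⟩
        refine ⟨h1, h2, ?_⟩
        rw [hw v h2]
        exact h3
    show (∃ s u : ℤ × ℤ, _) ↔ (∃ s u : ℤ × ℤ, _)
    rw [e]
  have hπ0 : 0 ≤ π := (Pr_nonneg hQ.pos _).trans (hπ eta0 f_good.2.1 fun _ _ _ => rfl)
  -- the event
  have h1 : Pr Q (D \ Z) (opn Z η)
      {ω | ∃ s, Kx true 0 (D \ Z) B (H364.Wc (D \ Z) (opn Z η)) ω s ∧ s ∈ U} ≤
      Ex Q (D \ Z) (opn Z η) (fun ω => E.indicator 1 ω * (ArmT t g).indicator 1 ω) := by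
    refine Ex_mono hQ.pos fun S _ => ?_
    rw [← ind_inter]
    refine H519.ind_le_of_imp fun hω => ?_
    obtain ⟨s, hs, hsU⟩ := hω
    have hse := hs.mod
    obtain ⟨x, hx, hxs⟩ := hs.dom hB
    have hsZ := BR.mem_sites.1 (hU s hsU (Int.even_iff.2 hse) ⟨x, hx, hxs⟩)
    obtain ⟨s₀, ⟨v₀, i0, i1⟩, i2, i3⟩ := kx_path hs
    obtain ⟨hxD, hxZ⟩ := mem_sdiff.1 hx
    have hvis : Vis t Z s := vis_of h (by omega) hsZ hxs hxZ (Or.inl hxD)
    refine ⟨?_, ?_⟩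
    · -- the path from `B` to the half box
      obtain ⟨u, j1, j2⟩ := first_hit (H := HBt t g) i3
        (BR.mem_sites.2 (hsZ.imp fun v hv => ⟨h.ZH hrg hv.1, hv.2⟩))
      refine ⟨s₀, u, ⟨v₀, i0, i1⟩, i2, j1, ReflTransGen.mono (fun x y hxy => ?_) _ _ j2⟩
      exact ⟨hxy.1, hxy.2.1, (mem_sdiff.1 hxy.2.2.1.1).1, hxy.2.2.2, hxy.2.2.1.2⟩
    · -- the arm
      have hrev : ReflTransGen (PStep {v | v ∈ D \ Z ∧ cf (D \ Z) (opn Z η) S v = true}) s s₀ := by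
        exact H519.conn_symm i3
      refine arm_of_path h hrg (open_cf S) (low_cf h S) hsZ hse (Or.inr hvis)
        (F := {v | v ∈ D \ Z ∧ cf (D \ Z) (opn Z η) S v = true}) (fun v hv => hv.2) hrev
        (Or.inl ⟨v₀, fun h5 => (disjoint_left.1 hBH) i0 h5, fun h5 =>
          (h.dom v₀ h5).1 (mem_sdiff.1 (hB i0)).1, i1⟩)
  have h2 := arm_ex hQ.pos h hrg hπ (G := E.indicator 1) (fun _ => ind_nonneg _ _)
    (Ind.mono sdiff_subset hEi)
  have h3 := hL D η t g r Z h hr hg (E.indicator 1) (fun _ => ind_nonneg _ _) (by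
    rw [h.inter]
    exact hEi)
  change Ex Q (D \ Z) (opn Z η) (E.indicator 1) ≤ 8 * Pr Q D η E at h3
  have h4 := mul_le_mul_of_nonneg_left h3 hπ0
  linarith

end Vale.Agent.P167.H627
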