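import Vale.Agent.P167.H364.LbT
import Vale.Agent.P167.H364.Opn

/-!
# P167, `0 < q < 4`, [GEO]: the boundary of the rectangle
-/

set_option autoImplicit false

namespace Vale.Agent.P167.H627

open Finset Relation Vale.Agent.P167.FK Vale.Agent.P167.H364
open Vale.Agent.P145.FB (PStep)
open Vale.Agent.P167.FKA (Cor)

variable {F : Set (ℤ × ℤ)} {g v w : ℤ × ℤ} {e : ℤ}

/-- All corners of the parity `e` of the square `v` are joined to `g` by squares of `F`. -/
def JdS (F : Set (ℤ × ℤ)) (e : ℤ) (g v : ℤ × ℤ) : Prop :=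
  ∀ s : ℤ × ℤ, (s.1 + s.2) % 2 = e → Cor v s → ReflTransGen (PStep F) s g

/-- The corners of a square of `F` are joined. -/
theorem cor_join (hv : v ∈ F) {s s' : ℤ × ℤ} (hs : (s.1 + s.2) % 2 = e) (hs' : (s'.1 + s'.2) % 2 = e)
    (h : Cor v s) (h' : Cor v s') : ReflTransGen (PStep F) s s' := by
  by_cases hne : s = s'
  · rw [hne]
  · exact ReflTransGen.single (Vale.Agent.P145.FB.step_of_corners (m := v.1) (n := v.2) (e := e)
      hv h.1 h.2 h'.1 h'.2 hs hs' hne)

theorem jdS_self (hv : v ∈ F) (hg : (g.1 + g.2) % 2 = e) (h : Cor v g) : JdS F e g v :=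
  fun _ hs hs' => cor_join hv hs hg hs' h

theorem jdS_step (he : e = 0 ∨ e = 1) (hv : v ∈ F)
    (hadj : (w.1 = v.1 ∧ (w.2 = v.2 + 1 ∨ w.2 = v.2 - 1)) ∨
      (w.2 = v.2 ∧ (w.1 = v.1 + 1 ∨ w.1 = v.1 - 1))) (hw : JdS F e g w) : JdS F e g v := by
  obtain ⟨c, c1, c2, c3⟩ : ∃ c : ℤ × ℤ, (c.1 + c.2) % 2 = e ∧ Cor v c ∧ Cor w c := by
    unfold Cor
    rcases hadj with ⟨h1, h2 | h2⟩ | ⟨h1, h2 | h2⟩
    · by_cases h : (v.1 + (v.2 + 1)) % 2 = e
      · exact ⟨(v.1, v.2 + 1), h, ⟨Or.inl rfl, Or.inr rfl⟩, ⟨Or.inl h1.symm, Or.inl h2.symm⟩⟩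
      · exact ⟨(v.1 + 1, v.2 + 1), by simp only; omega, ⟨Or.inr rfl, Or.inr rfl⟩,
          ⟨Or.inr (by simp only; omega), Or.inl h2.symm⟩⟩
    · by_cases h : (v.1 + v.2) % 2 = e
      · exact ⟨(v.1, v.2), h, ⟨Or.inl rfl, Or.inl rfl⟩,
          ⟨Or.inl h1.symm, Or.inr (by simp only; omega)⟩⟩
      · exact ⟨(v.1 + 1, v.2), by simp only; omega, ⟨Or.inr rfl, Or.inl rfl⟩,
          ⟨Or.inr (by simp only; omega), Or.inr (by simp only; omega)⟩⟩
    · by_cases h : (v.1 + 1 + v.2) % 2 = e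
      · exact ⟨(v.1 + 1, v.2), h, ⟨Or.inr rfl, Or.inl rfl⟩, ⟨Or.inl h2.symm, Or.inl h1.symm⟩⟩
      · exact ⟨(v.1 + 1, v.2 + 1), by simp only; omega, ⟨Or.inr rfl, Or.inr rfl⟩,
          ⟨Or.inl (by simp only; omega), Or.inr (by simp only; omega)⟩⟩
    · by_cases h : (v.1 + v.2) % 2 = e
      · exact ⟨(v.1, v.2), h, ⟨Or.inl rfl, Or.inl rfl⟩,
          ⟨Or.inr (by simp only; omega), Or.inl (by simp only; omega)⟩⟩
      · exact ⟨(v.1, v.2 + 1), by simp only; omega, ⟨Or.inl rfl, Or.inr rfl⟩,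
          ⟨Or.inr (by simp only; omega), Or.inr (by simp only; omega)⟩⟩
  intro s hs hs'
  exact (cor_join hv hs c1 hs' c2).trans (hw c c1 c3)

/-- A row of squares, going to the right. -/
theorem jdS_right (he : e = 0 ∨ e = 1) {y a : ℤ} : ∀ m : ℕ, (∀ x, a - m ≤ x → x ≤ a → (x, y) ∈ F) →
    JdS F e g (a, y) → JdS F e g (a - m, y) := by
  intro m
  induction m with
  | zero =>
    intro _ h
    simpa using h
  | succ m ih =>
    intro hF h
    refine jdS_step he (hF _ (by omega) (by omega)) (w := (a - m, y)) (Or.inr ⟨rfl, Or.inl ?_⟩)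
      (ih (fun x h1 h2 => hF x (by omega) h2) h)
    push_cast
    ring

theorem jdS_left (he : e = 0 ∨ e = 1) {y a : ℤ} : ∀ m : ℕ, (∀ x, a ≤ x → x ≤ a + m → (x, y) ∈ F) →
    JdS F e g (a, y) → JdS F e g (a + m, y) := by
  intro m
  induction m with
  | zero =>
    intro _ h
    simpa using h
  | succ m ih =>
    intro hF h
    refine jdS_step he (hF _ (by omega) (by omega)) (w := (a + m, y)) (Or.inr ⟨rfl, Or.inr ?_⟩)
      (ih (fun x h1 h2 => hF x h1 (by omega)) h)
    push_cast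
    ring

theorem jdS_up (he : e = 0 ∨ e = 1) {x a : ℤ} : ∀ m : ℕ, (∀ y, a - m ≤ y → y ≤ a → (x, y) ∈ F) →
    JdS F e g (x, a) → JdS F e g (x, a - m) := by
  intro m
  induction m with
  | zero =>
    intro _ h
    simpa using h
  | succ m ih =>
    intro hF h
    refine jdS_step he (hF _ (by omega) (by omega)) (w := (x, a - m)) (Or.inl ⟨rfl, Or.inl ?_⟩)
      (ih (fun x h1 h2 => hF x (by omega) h2) h)
    push_cast
    ring

theorem jdS_down (he : e = 0 ∨ e = 1) {x a : ℤ} : ∀ m : ℕ, (∀ y, a ≤ y → y ≤ a + m → (x, y) ∈ F) →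
    JdS F e g (x, a) → JdS F e g (x, a + m) := by
  intro m
  induction m with
  | zero =>
    intro _ h
    simpa using h
  | succ m ih =>
    intro hF h
    refine jdS_step he (hF _ (by omega) (by omega)) (w := (x, a + m)) (Or.inl ⟨rfl, Or.inr ?_⟩)
      (ih (fun x h1 h2 => hF x h1 (by omega)) h)
    push_cast
    ring

/-! ### The rectangle -/

variable {t : ℤ × ℤ} {l r : ℤ}

theorem mem_recT {v : ℤ × ℤ} : v ∈ recT t l r ↔
    t.1 - r ≤ v.1 ∧ v.1 < t.1 + l + r ∧ t.2 ≤ v.2 ∧ v.2 < t.2 + r := by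
  unfold recT
  rw [mem_product, mem_Ico, mem_Ico]
  tauto

theorem xiT_true {v : ℤ × ℤ} : xiT t l r v = true ↔
    v.2 = t.2 - 1 ∧ t.1 + l ≤ v.1 ∧ v.1 < t.1 + l + r := by
  unfold xiT
  rw [decide_eq_true_iff]

theorem xiT_false {v : ℤ × ℤ} : xiT t l r v = false ↔
    ¬ (v.2 = t.2 - 1 ∧ t.1 + l ≤ v.1 ∧ v.1 < t.1 + l + r) := by
  unfold xiT
  rw [decide_eq_false_iff_not]

theorem good_xiT : Good (xiT t l r) := by
  have e : xiT t l r = opn ((Finset.Ico (t.1 + l) (t.1 + l + r)).image fun x => (x, t.2 - 1)) eta0 := by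
    funext v
    rw [Bool.eq_iff_iff, xiT_true, opn_true, mem_image]
    constructor
    · rintro ⟨h1, h2, h3⟩
      exact Or.inl ⟨v.1, mem_Ico.2 ⟨h2, h3⟩, Prod.ext rfl h1.symm⟩
    · rintro (⟨x, h1, rfl⟩ | h)
      · rw [mem_Ico] at h1
        exact ⟨rfl, h1.1, h1.2⟩
      · exact absurd h (by simp [eta0])
  rw [e]
  exact good_opn f_good.2.1

/-- The free squares around the rectangle. -/
theorem ring_free {x y : ℤ}
    (h : (x = t.1 + l + r ∧ t.2 - 1 ≤ y) ∨ (t.2 + r ≤ y) ∨ (x < t.1 - r ∧ t.2 - 1 ≤ y) ∨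
      (y = t.2 - 1 ∧ x < t.1)) (hr : 1 ≤ r) (hl : 1 ≤ l) :
    (x, y) ∈ {v | v ∉ recT t l r ∧ xiT t l r v = false ∧ v ∉ rT t l ∧ v ≠ ra t l} := by
  refine ⟨?_, ?_, ?_, ?_⟩
  · rw [mem_recT]
    simp only
    omega
  · rw [xiT_false]
    simp only
    omega
  · unfold rT
    rw [mem_insert, mem_image]
    rintro (h1 | ⟨z, h1, h2⟩)
    · rw [Prod.mk.injEq] at h1
      omega
    · rw [mem_Ioo] at h1
      rw [Prod.mk.injEq] at h2
      omega
  · intro h1
    unfold ra at h1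
    rw [Prod.mk.injEq] at h1
    omega

/-- The boundary of the rectangle. -/
theorem bd_rec (ht : Even (t.1 + t.2)) (hl : Even l) (hl4 : 4 ≤ l)
    (hr : 4 ≤ r) : Bd (recT t l r) (xiT t l r) t l := by
  rw [Int.even_iff] at ht hl
  refine ⟨⟨?_, ?_⟩, good_xiT, ?_, ?_⟩
  · intro x y _ _ _ h4 h5
    rw [mem_recT] at h5
    simp only at h5
    omega
  · intro x y h1 h2 h3 h4
    rw [xiT_true]
    simp only
    omega
  · -- wired contacts
    rintro s hs ⟨x, hx, hxs⟩ ⟨z, hz, hzo, hzs⟩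
    rw [xiT_true] at hzo
    rw [mem_recT] at hx
    unfold Cor at hxs hzs
    have h2 : s.2 = t.2 := by omega
    obtain ⟨m, hm⟩ : ∃ m : ℕ, s.1 = t.1 + l + 2 * m := ⟨((s.1 - t.1 - l) / 2).toNat, by omega⟩
    have hm2 : 2 * (m : ℤ) ≤ r := by omega
    clear hs hxs hzs hx hz hzo
    have key : ∀ m : ℕ, 2 * (m : ℤ) ≤ r →
        OJ (recT t l r) (xiT t l r) (t.1 + l + 2 * m, t.2) (t.1 + l, t.2) := by
      intro m
      induction m with
      | zero =>
        intro _
        simp only [Nat.cast_zero, mul_zero, add_zero]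
        exact ReflTransGen.refl
      | succ m ih =>
        intro h5
        push_cast at h5 ⊢
        have i1 := ih (by omega)
        have hF : ∀ x : ℤ, t.1 + l ≤ x → x < t.1 + l + r →
            (x, t.2 - 1) ∈ {v | v ∉ recT t l r ∧ xiT t l r v = true} := by
          intro x h6 h7
          refine ⟨fun h8 => ?_, xiT_true.2 ⟨rfl, h6, h7⟩⟩
          rw [mem_recT] at h8
          simp only at h8
          omega
        have j1 := cor_join (e := 0) (hF (t.1 + l + 2 * m + 1) (by omega) (by omega))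
          (s := (t.1 + l + 2 * (m + 1), t.2)) (s' := (t.1 + l + 2 * m + 1, t.2 - 1))
          (by simp only; omega) (by simp only; omega)
          ⟨Or.inr (by simp only; ring), Or.inr (by simp only; ring)⟩ ⟨Or.inl rfl, Or.inl rfl⟩
        have j2 := cor_join (e := 0) (hF (t.1 + l + 2 * m) (by omega) (by omega))
          (s := (t.1 + l + 2 * m + 1, t.2 - 1)) (s' := (t.1 + l + 2 * m, t.2))
          (by simp only; omega) (by simp only; omega)
          ⟨Or.inr rfl, Or.inl rfl⟩ ⟨Or.inl rfl, Or.inr (by simp only; ring)⟩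
        exact (j1.trans j2).trans i1
    have e : s = (t.1 + l + 2 * (m : ℤ), t.2) := Prod.ext hm h2
    rw [e]
    exact key m hm2
  · -- free contacts
    rintro s hs ⟨x, hx, hxs⟩ ⟨z, hz, hzc, hzs⟩
    rw [xiT_false] at hzc
    rw [mem_recT] at hx hz
    -- the ring of free squares
    set G : Set (ℤ × ℤ) := {v | v ∉ recT t l r ∧ xiT t l r v = false ∧ v ∉ rT t l ∧ v ≠ ra t l}
      with hG
    have hJ : ∀ v, JdS G 1 (t.1 - 1, t.2) v → Cor v s → CJ (recT t l r) (xiT t l r) t l s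
        (t.1 - 1, t.2) := fun v h1 h2 => h1 s hs h2
    have b0 : JdS G 1 (t.1 - 1, t.2) (t.1 - 1, t.2 - 1) :=
      jdS_self (ring_free (by omega) (by omega) (by omega)) (by simp only; omega)
        ⟨Or.inl rfl, Or.inr (by simp only; ring)⟩
    -- the bottom row to the left of `t`
    have b1 : ∀ m : ℕ, JdS G 1 (t.1 - 1, t.2) (t.1 - 1 - m, t.2 - 1) := fun m =>
      jdS_right (Or.inr rfl) m (fun x _ _ => ring_free (by omega) (by omega) (by omega)) b0
    -- the left column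
    have b2 : ∀ m : ℕ, JdS G 1 (t.1 - 1, t.2) (t.1 - r - 1, t.2 - 1 + m) := fun m => by
      refine jdS_down (Or.inr rfl) m (fun x _ _ => ring_free (by omega) (by omega) (by omega)) ?_
      have h1 := b1 r.toNat
      rw [Int.toNat_of_nonneg (by omega)] at h1
      rwa [show t.1 - 1 - r = t.1 - r - 1 by ring] at h1
    -- the top row
    have b3 : ∀ m : ℕ, JdS G 1 (t.1 - 1, t.2) (t.1 - r - 1 + m, t.2 + r) := fun m => by
      refine jdS_left (Or.inr rfl) m (fun x _ _ => ring_free (by omega) (by omega) (by omega)) ?_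
      have h1 := b2 (r + 1).toNat
      rw [Int.toNat_of_nonneg (by omega)] at h1
      rwa [show t.2 - 1 + (r + 1) = t.2 + r by ring] at h1
    -- the right column
    have b4 : ∀ m : ℕ, (m : ℤ) ≤ r + 1 → JdS G 1 (t.1 - 1, t.2) (t.1 + l + r, t.2 + r - m) :=
      fun m hm => by
      refine jdS_up (Or.inr rfl) m (fun x _ _ => ring_free (by omega) (by omega) (by omega)) ?_
      have h1 := b3 (l + 2 * r + 1).toNat
      rw [Int.toNat_of_nonneg (by omega)] at h1
      rwa [show t.1 - r - 1 + (l + 2 * r + 1) = t.1 + l + r by ring] at h1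
    unfold Cor at hxs hzs
    by_cases c1 : s.1 = t.1 + l + r
    · right
      have h1 := b4 (t.2 + r - s.2).toNat (by omega)
      rw [Int.toNat_of_nonneg (by omega)] at h1
      exact hJ _ h1 ⟨Or.inl c1, Or.inl (by simp only; ring)⟩
    by_cases c2 : s.1 = t.1 - r
    · right
      have h1 := b2 (s.2 - t.2 + 1).toNat
      rw [Int.toNat_of_nonneg (by omega)] at h1
      exact hJ _ h1 ⟨Or.inr (by simp only; omega), Or.inl (by simp only; ring)⟩
    by_cases c3 : s.2 = t.2 + r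
    · right
      have h1 := b3 (s.1 - t.1 + r + 1).toNat
      rw [Int.toNat_of_nonneg (by omega)] at h1
      exact hJ _ h1 ⟨Or.inl (by simp only; ring), Or.inl c3⟩
    have c4 : s.2 = t.2 := by omega
    by_cases c5 : t.1 < s.1
    · left
      refine ⟨c4, c5, ?_⟩
      omega
    · right
      have h1 := b1 (t.1 - s.1).toNat
      rw [Int.toNat_of_nonneg (by omega)] at h1
      refine hJ _ h1 ⟨Or.inr (by simp only; ring), Or.inr (by simp only; omega)⟩

end Vale.Agent.P167.H627
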