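import Vale.Agent.P167.H627.BdRec
import Vale.Agent.P167.H364.LitT
import Vale.Agent.P167.H72.SD.Lat3
import Vale.Agent.P167.H72.SD.Wf

/-!
# P167, `0 < q < 4`, [GEO]: the connection of a frozen set to the wired arc
-/

set_option autoImplicit false

namespace Vale.Agent.P167.H627

open Finset Relation Vale.Agent.P167.FK Vale.Agent.P167.H364
open Vale.Agent.P145.FB (PStep)
open Vale.Agent.P167.FKA (Cor cor_of_step)
open Vale.Agent.P167.E6 (IsPolygon Encloses edges wiredOpen face dir)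
open Vale.Agent.P167.H718 (Dq)
open Vale.Agent.P167.H72.SD (dk om)
open Vale.Agent.P167.H918 (Loc)

variable {n : ℕ} {p : ZMod n → ℤ × ℤ} {S : Finset (ℤ × ℤ)} {k M : ℕ} {R : ℤ}
  {A : Finset (Sym2 (ℤ × ℤ))} {F : Set (ℤ × ℤ)} {s s' : ℤ × ℤ} {H : Finset (ℤ × ℤ)}

/-- The first hit of a set of sites. -/
theorem first_hitS {W : Set (ℤ × ℤ)} (h : ReflTransGen (PStep F) s s') (hs : s' ∈ W) :
    ∃ u ∈ W, ReflTransGen (fun x y => PStep F x y ∧ x ∉ W) s u := by
  classical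
  induction h using ReflTransGen.head_induction_on with
  | refl => exact ⟨s', hs, ReflTransGen.refl⟩
  | @head x y hxy _ ih =>
    by_cases hx : x ∈ W
    · exact ⟨x, hx, ReflTransGen.refl⟩
    · obtain ⟨u, hu, h1⟩ := ih
      exact ⟨u, hu, ReflTransGen.head ⟨hxy, hx⟩ h1⟩

/-- The first hit of the sites of `H`, in terms of squares. -/
theorem first_hitH (h : ReflTransGen (PStep F) s s') (hs : s' ∈ BR.sites H) :
    ∃ u ∈ BR.sites H, ReflTransGen (PStep {v | v ∈ F ∧ v ∉ H}) s u := by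
  obtain ⟨u, hu, h1⟩ := first_hitS (W := ↑(BR.sites H)) h (mem_coe.2 hs)
  refine ⟨u, mem_coe.1 hu, ReflTransGen.mono (fun x y hxy => ?_) _ _ h1⟩
  exact ⟨hxy.1.1, hxy.1.2.1, hxy.1.2.2, fun h2 => hxy.2 (mem_coe.2
    (BR.mem_sites.2 ⟨_, h2, (cor_of_step hxy.1).1⟩))⟩

/-- The even corners of a wired square are wired vertices. -/
theorem wired_corner (hp : IsPolygon p) {v : ℤ × ℤ} {i : ℕ} (hi1 : k ≤ i) (hi2 : i + 1 < n)
    (h1 : H192.ed v = s(p i, p (i + 1))) (hse : (s.1 + s.2) % 2 = 0) (hvs : Cor v s) :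
    s ∈ wT p k := by
  obtain ⟨d, hd⟩ := hp.2.2 (i : ZMod n)
  have hv1 : v = H192.sq s(p i, p i + dir d) := by
    rw [← hd, ← h1, H192.sq_ed]
  have hc : s = H192.ro (p i) ∨ s = H192.ro (p i + dir d) := by
    have h3 : Cor (H72.SD.sqr (H192.ro (p i)) (H192.ro (p i + dir d))) s := by
      rw [H72.SD.ed_sqr_dir, ← hv1]
      exact hvs
    obtain ⟨h4, h5⟩ := H192.ro_dir (p i) d
    have he1 := Int.even_iff.1 (H192.even_ro (p i))
    have he2 := Int.even_iff.1 (H192.even_ro (p i + dir d))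
    obtain ⟨h6, h7⟩ := h3
    unfold H72.SD.sqr at h6 h7
    dsimp only at h6 h7
    rw [Prod.ext_iff, Prod.ext_iff]
    omega
  rcases hc with rfl | rfl
  · exact ⟨i, hi1, by omega, rfl⟩
  · refine ⟨i + 1, by omega, hi2, ?_⟩
    have e1 : p ((i + 1 : ℕ) : ZMod n) = p i + dir d := by
      rw [← hd]
      push_cast
      rfl
    rw [e1]

/-- The event that `Z` is joined to the wired arc in the domain. -/
theorem ftz_D (H : Loc p S k M R) (hA : A ⊆ edges S) {t : ℤ × ℤ} {l : ℕ}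
    (ht : t + ((l : ℤ), 0) = H192.ro (p k)) (hl : Even l) {Z : Finset (ℤ × ℤ)} {ρ : ℤ}
    (hZ : Z ⊆ BR.hbox t ρ) (hZ1 : BR.hbox t 1 ⊆ Z) (hρ : ρ + 8 ≤ l) (hR : (l : ℤ) + ρ + 8 ≤ R)
    (hc : CoZ t Z) {ω : Cfg} (hω : ∀ v, v ∉ Dq S p k → ω v = om p k A v) :
    BR.Jn true (Dq S p k \ Z) ω (↑(BR.sites Z)) (wT p k) ↔ PC (opn Z ω) t (t.1 + l, t.2) := by
  classical
  have hb : H192.ro (p k) = (t.1 + (l : ℤ), t.2) := by
    rw [← ht]
    ext <;> simp
  have hb1 : (H192.ro (p k)).1 = t.1 + l := by rw [hb]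
  have hb2 : (H192.ro (p k)).2 = t.2 := by rw [hb]
  have hk1 := H.hk1
  have hk2 := H.hk2
  have hkn : k < n := by omega
  have hHR := H.hR
  have hbe : ((H192.ro (p k)).1 + (H192.ro (p k)).2) % 2 = 0 := Int.even_iff.1 (H192.even_ro (p k))
  have hte : (t.1 + t.2) % 2 = 0 := by
    obtain ⟨m, hm⟩ := hl
    rw [hb1, hb2] at hbe
    omega
  have mh : ∀ v ∈ Z, t.1 - ρ ≤ v.1 ∧ v.1 < t.1 + ρ ∧ t.2 ≤ v.2 ∧ v.2 < t.2 + ρ := by
    intro v hv
    have := hZ hv
    unfold BR.hbox at this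
    rw [mem_product, mem_Icc, mem_Icc] at this
    omega
  have htZ : t ∈ Z := by
    refine hZ1 ?_
    unfold BR.hbox
    rw [mem_product, mem_Icc, mem_Icc]
    omega
  have hρ0 := mh t htZ
  -- the squares near `Z`
  have near : ∀ v w u : ℤ × ℤ, v ∈ Z → Cor v u → Cor w u → w ∈ Dq S p k → t.2 ≤ w.2 := by
    intro v w u hv hvu hwu hw
    have h1 := mh v hv
    unfold Cor at hvu hwu
    have h2 : |w.1 - (H192.ro (p k)).1| + 1 ≤ R := by
      have : |w.1 - (H192.ro (p k)).1| ≤ R - 1 := abs_le.2 (by rw [hb1]; constructor <;> omega)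
      linarith
    have h3 : |w.2 - (H192.ro (p k)).2| + 2 ≤ R := by
      have : |w.2 - (H192.ro (p k)).2| ≤ R - 2 := abs_le.2 (by rw [hb2]; constructor <;> omega)
      linarith
    have h4 := (H.mem_Dq_iff (x := w.1) (y := w.2) h2 h3).1 hw
    rwa [hb2] at h4
  constructor
  · rintro ⟨u, hu, w, ⟨i, hi1, hi2, hiw⟩, hue, hp⟩
    rw [mem_coe, BR.mem_sites] at hu
    obtain ⟨v, hvZ, hvu⟩ := hu
    have hvu' : Cor v u := hvu
    have hue' : (u.1 + u.2) % 2 = 0 := hue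
    -- `u` is not wired
    have hne : u ≠ w := by
      rintro rfl
      have h1 := mh v hvZ
      unfold Cor at hvu'
      have h2 := H.near i hi2 (by
        rw [hiw]
        exact abs_le.2 (by rw [hb1]; constructor <;> omega)) (by
        rw [hiw]
        exact abs_le.2 (by rw [hb2]; constructor <;> omega))
      obtain ⟨m, rfl⟩ : ∃ m, i = k + m := ⟨i - k, by omega⟩
      have h3 := H.pos_fw m (by omega)
      have h4 : H192.ro (p ((k + m : ℕ) : ZMod n)) = u := hiw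
      push_cast at h4
      rw [h4] at h3
      have h5 := congrArg Prod.fst h3
      rw [hb1] at h5
      simp only at h5
      omega
    -- the first square
    have hvis : ∃ w : ℤ × ℤ, w ∉ Z ∧ t.2 ≤ w.2 ∧ Cor w u := by
      rcases hp.cases_head with h1 | ⟨x, h1, -⟩
      · exact absurd h1 hne
      · obtain ⟨h2, h3⟩ := h1.2.2
        have h4 := mem_sdiff.1 (mem_coe.1 h3)
        have h5 := (cor_of_step h1).1
        exact ⟨_, h4.2, near v _ u hvZ hvu' h5 h4.1, h5⟩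
    have p1 : PC (opn Z ω) t u := by
      refine ReflTransGen.mono (fun x y hxy => ?_) _ _ (hc u hue' ⟨v, hvZ, hvu'⟩ hvis)
      exact ⟨hxy.1, hxy.2.1, opn_true.2 (Or.inl (mem_coe.1 hxy.2.2))⟩
    have p2 : PC (opn Z ω) u w := by
      refine ReflTransGen.mono (fun x y hxy => ?_) _ _ hp
      exact ⟨hxy.1, hxy.2.1, opn_true.2 (Or.inr hxy.2.2.1)⟩
    have p3 : PC (opn Z ω) (H192.ro (p k)) w := by
      have h1 := H72.SD.wired_chain (A := A) H.poly (Dq S p k) subset_rfl le_rfl hi1 hi2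
      rw [hiw] at h1
      refine ReflTransGen.mono (fun x y hxy => ⟨hxy.1, hxy.2.1, ?_⟩) _ _ h1
      have h2 := hxy.2.2
      change cf (Dq S p k) (om p k A) ∅ _ = true at h2
      obtain ⟨h3, h4⟩ := cf_emp_true.1 h2
      exact opn_true.2 (Or.inr (by rw [hω _ h3]; exact h4))
    rw [hb] at p3
    exact (p1.trans p2).trans (FKA.rtg_symm p3)
  · intro hp
    -- the last visit of `Z`
    have htS : t ∈ BR.sites Z := BR.mem_sites.2 ⟨t, htZ, Or.inl rfl, Or.inl rfl⟩
    obtain ⟨u, hu, h1⟩ := first_hitH (FKA.rtg_symm hp) htS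
    have h2 := FKA.rtg_symm h1
    -- the first visit of the wired arc
    obtain ⟨w, hw, h3⟩ := first_hitS (W := wT p k) h2 ⟨k, le_rfl, hkn, hb⟩
    have hue : (u.1 + u.2) % 2 = 0 := by
      have h4 := Vale.Agent.P167.FKA.rtg_parity (show ReflTransGen (PStep _) (t.1 + (l : ℤ), t.2) u from h1)
      rw [hb1, hb2] at hbe
      simp only at h4
      omega
    refine ⟨u, mem_coe.2 hu, w, hw, hue, ?_⟩
    -- parities along the path
    have key : ∀ y, ReflTransGen (fun x y => PStep {v | v ∈ op (opn Z ω) ∧ v ∉ Z} x y ∧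
        x ∉ wT p k) u y → (y.1 + y.2) % 2 = 0 ∧
        ReflTransGen (PStep (H632.cs true ω ∩ (↑(Dq S p k \ Z) : Set (ℤ × ℤ)))) u y := by
      intro y hy
      induction hy with
      | refl => exact ⟨hue, ReflTransGen.refl⟩
      | @tail x y _ hxy ih =>
        obtain ⟨i1, i2⟩ := ih
        obtain ⟨j1, j2⟩ := hxy
        have hm := j1.2.2
        obtain ⟨hm1, hm2⟩ := hm
        have hmo : ω (min x.1 y.1, min x.2 y.2) = true := (opn_true.1 hm1).resolve_left hm2
        have hye : (y.1 + y.2) % 2 = 0 := by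
          obtain ⟨a1, a2, -⟩ := j1
          omega
        refine ⟨hye, i2.tail ⟨j1.1, j1.2.1, hmo, mem_coe.2 (mem_sdiff.2 ⟨?_, hm2⟩)⟩⟩
        by_contra hD
        rw [hω _ hD] at hmo
        obtain ⟨i, k1, k2, k3⟩ := H72.SD.open_out hA hD hmo
        exact j2 (wired_corner H.poly k1 k2 k3 i1 (cor_of_step j1).1)
    exact (key w h3).2

end Vale.Agent.P167.H627
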