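import Vale.Agent.P167.H364.ErrD
import Vale.Agent.P167.N.H192.Q.RatB
import Vale.Agent.P167.N.MIX.RatK
import Vale.Agent.P167.H167.Q.Mix

/-!
# P167, `0 < q < 1`, [GEO]: mixing at `t`, the law of a frozen pair, change of measure

`ex_stamp`: the law conditionally on `ω = ζ` on `Z` is the law in `D \ Z`. `mix_Z`: ratio mixing for the
configuration on `Z`. `fz_split`: the expectation of a frozen pair. `chg`: change of measure.
-/

set_option autoImplicit false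

namespace Vale.Agent.P167.H627

open Finset Relation Vale.Agent.P167.FK Vale.Agent.P167.FKA Vale.Agent.P167.H364
open Vale.Agent.P145.FB (PStep)
open Vale.Agent.P167.H259 (f_markov Ex_out)
open Vale.Agent.P167.H635 (mem_Bq bq_mono shp_ge2)

variable {Q : ℝ} {D D' Dc B Bx Z : Finset (ℤ × ℤ)} {η η' ζ ω : Cfg} {t b s w v : ℤ × ℤ} {g r R : ℤ}

/-! ### Geometry of the frozen set -/

theorem mem_hbox' : v ∈ BR.hbox t r ↔ t.1 - r ≤ v.1 ∧ v.1 < t.1 + r ∧ t.2 ≤ v.2 ∧ v.2 < t.2 + r := by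
  unfold BR.hbox
  rw [mem_product, mem_Icc, mem_Icc]
  omega

theorem mem_HBt : v ∈ HBt t r ↔ t.1 - r ≤ v.1 ∧ v.1 < t.1 + r ∧ t.2 ≤ v.2 ∧ v.2 < t.2 + r := by
  unfold HBt
  rw [mem_product, mem_Ico, mem_Ico]
  tauto

theorem hbox_Bq : BR.hbox t r ⊆ Bq t r := by
  intro v hv
  rw [mem_hbox'] at hv
  rw [mem_Bq]
  omega

theorem _root_.Vale.Agent.P167.H364.FlZ.Bq_sub (h : FlZ D η t g r Z) (hr : r ≤ R) : Z ⊆ Bq t R :=
  h.sub.trans (hbox_Bq.trans (bq_mono hr))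

theorem _root_.Vale.Agent.P167.H364.FlZ.ZD (h : FlZ D η t g r Z) (hr : r ≤ g + 2) : Z ⊆ D := fun v hv =>
  (h.dom v (h.Bq_sub hr hv)).2 (mem_hbox'.1 (h.sub hv)).2.2.1

theorem _root_.Vale.Agent.P167.H364.FlZ.ZH (h : FlZ D η t g r Z) (hr : r ≤ g) : Z ⊆ HBt t g := fun v hv => by
  have := mem_hbox'.1 (h.sub hv)
  rw [mem_HBt]
  omega

theorem _root_.Vale.Agent.P167.H364.FlZ.inter (h : FlZ D η t g r Z) : D ∩ Bq t g = HBt t g := by
  ext v
  rw [mem_inter, mem_HBt]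
  constructor
  · rintro ⟨h1, h2⟩
    have h3 := (h.dom v (bq_mono (by omega) h2)).1 h1
    rw [mem_Bq] at h2
    omega
  · intro h1
    have h2 : v ∈ Bq t g := by
      rw [mem_Bq]
      omega
    exact ⟨(h.dom v (bq_mono (by omega) h2)).2 h1.2.2.1, h2⟩

/-- The squares at the corners of `Z` are near. -/
theorem _root_.Vale.Agent.P167.H364.FlZ.near (h : FlZ D η t g r Z) (hr : r ≤ g + 1) (hs : ∃ v ∈ Z, Cor v s) (hw : Cor w s) :
    w ∈ Bq t (g + 2) := by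
  obtain ⟨v, hv, h1⟩ := hs
  have h2 := mem_hbox'.1 (h.sub hv)
  unfold Cor at h1 hw
  rw [mem_Bq]
  omega

/-- The squares at the corners of the half box are near. -/
theorem near_HBt (hs : ∃ v ∈ HBt t g, Cor v s) (hw : Cor w s) : w ∈ Bq t (g + 2) := by
  obtain ⟨v, hv, h1⟩ := hs
  have h2 := mem_HBt.1 hv
  unfold Cor at h1 hw
  rw [mem_Bq]
  omega

/-- The set of an admissible pair. -/
theorem admZ_co (h : AdmZ t r R Z ζ) (hr : 1 ≤ r) (ht : Even (t.1 + t.2)) : CoZ t Z := by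
  classical
  -- the diagonal from `t`
  have hex : ∃ k : ℕ, (t.1 + k, t.2 + k) ∉ Z := by
    refine ⟨R.toNat, fun hk => ?_⟩
    have h1 := mem_hbox'.1 (h.sub hk)
    simp only at h1
    omega
  obtain ⟨k, hk, hmin⟩ : ∃ k : ℕ, (t.1 + k, t.2 + k) ∉ Z ∧ ∀ j < k, (t.1 + j, t.2 + j) ∈ Z :=
    ⟨Nat.find hex, Nat.find_spec hex, fun j hj => by
      by_contra hc
      exact Nat.find_min hex hj hc⟩
  have h0 : (t.1, t.2) ∈ Z := h.low (mem_hbox'.2 ⟨by simp only; omega, by simp only; omega,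
    by simp only; omega, by simp only; omega⟩)
  have hk0 : k ≠ 0 := by
    rintro rfl
    apply hk
    simpa using h0
  have hpath : ∀ j ≤ k, ReflTransGen (PStep (↑Z : Set (ℤ × ℤ))) t (t.1 + j, t.2 + j) := by
    intro j
    induction j with
    | zero =>
      intro _
      rw [show ((t.1 + ((0 : ℕ) : ℤ), t.2 + ((0 : ℕ) : ℤ)) : ℤ × ℤ) = t by ext <;> simp]
    | succ j ih =>
      intro hj
      refine (ih (by omega)).tail ⟨Or.inl (by push_cast; ring), Or.inl (by push_cast; ring), ?_⟩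
      have h1 := hmin j (by omega)
      rw [show (min (t.1 + (j : ℤ)) (t.1 + ((j + 1 : ℕ) : ℤ)), min (t.2 + (j : ℤ))
        (t.2 + ((j + 1 : ℕ) : ℤ))) = (t.1 + (j : ℤ), t.2 + (j : ℤ)) by
          ext <;> simp]
      exact mem_coe.2 h1
  intro s hs hsZ hsv
  have hv : (t.1 + ((k : ℕ) : ℤ), t.2 + ((k : ℕ) : ℤ)) ∈ BR.sites Z := by
    rw [BR.mem_sites]
    refine ⟨(t.1 + ((k - 1 : ℕ) : ℤ), t.2 + ((k - 1 : ℕ) : ℤ)), hmin _ (by omega), ?_, ?_⟩
    · right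
      simp only
      omega
    · right
      simp only
      omega
  have hc := h.conn _ hv s (BR.mem_sites.2 hsZ) (by
      rw [Int.even_iff] at ht ⊢
      simp only
      omega) (by
      rw [Int.even_iff]
      exact hs) ⟨_, hk, by simp only; omega, BR.mem_sites.2 ⟨_, mem_singleton_self _,
        Or.inl rfl, Or.inl rfl⟩⟩ (by
      obtain ⟨w, h1, h2, h3⟩ := hsv
      exact ⟨w, h1, h2, BR.mem_sites.2 ⟨w, mem_singleton_self _, h3⟩⟩)
  refine (hpath k le_rfl).trans (ReflTransGen.mono (fun x y hxy => ?_) _ _ hc)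
  exact ⟨hxy.1, hxy.2.1, hxy.2.2.2⟩

/-! ### Conditioning on the squares of `Z` -/

/-- The event `ω = ζ` on `Z`. -/
def OnZ (Z : Finset (ℤ × ℤ)) (ζ : Cfg) : Set Cfg := {ω | ∀ v ∈ Z, ω v = ζ v}

theorem onZ_congr {ω ω' : Cfg} (h : ∀ v ∈ Z, ω v = ω' v) : ω ∈ OnZ Z ζ ↔ ω' ∈ OnZ Z ζ := by
  constructor
  · intro h1 v hv
    rw [← h v hv]
    exact h1 v hv
  · intro h1 v hv
    rw [h v hv]
    exact h1 v hv

theorem ind_congr {A : Set Cfg} {ω ω' : Cfg} (h : ω ∈ A ↔ ω' ∈ A) :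
    A.indicator (1 : Cfg → ℝ) ω = A.indicator 1 ω' := by
  by_cases h1 : ω ∈ A
  · rw [Set.indicator_of_mem h1, Set.indicator_of_mem (h.1 h1)]
    rfl
  · rw [Set.indicator_of_notMem h1, Set.indicator_of_notMem fun h2 => h1 (h.2 h2)]

theorem loc_onZ : Loc Z ((OnZ Z ζ).indicator (1 : Cfg → ℝ)) :=
  fun _ _ h => ind_congr (onZ_congr h)

theorem ind_onZ : Ind (D \ Z) ((OnZ Z ζ).indicator (1 : Cfg → ℝ)) :=
  loc_onZ.ind disjoint_sdiff

theorem onZ_pos (hQ : 0 < Q) (hZD : Z ⊆ D) : 0 < Pr Q D η (OnZ Z ζ) := by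
  unfold Pr Ex
  refine div_pos (Finset.sum_pos' (fun S _ => mul_nonneg (pow_nonneg hQ.le _) (ind_nonneg _ _))
    ⟨Z.filter fun v => ζ v = true, mem_powerset.2 ((filter_subset _ _).trans hZD), ?_⟩)
    (Zq_pos hQ D η)
  refine mul_pos (pow_pos hQ _) ?_
  rw [Set.indicator_of_mem]
  · exact one_pos
  · intro v hv
    show cf D η _ v = ζ v
    unfold cf
    rw [if_pos (hZD hv)]
    by_cases h : ζ v = true
    · rw [h, decide_eq_true_iff, mem_filter]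
      exact ⟨hv, h⟩
    · rw [Bool.not_eq_true] at h
      rw [h, decide_eq_false_iff_not, mem_filter]
      rintro ⟨-, h1⟩
      rw [h] at h1
      exact absurd h1 (by simp)

/-- **Conditioning**: the conditional expectation is a constant. -/
theorem ex_onZ (hQ : 0 < Q) (hη : Good η) {F : Cfg → ℝ} {a : ℝ}
    (h : ∀ S ⊆ D, cf D η S ∈ OnZ Z ζ → Ex Q (D \ Z) (cf D η S) F = a) :
    Ex Q D η (fun ω => (OnZ Z ζ).indicator 1 ω * F ω) = Pr Q D η (OnZ Z ζ) * a := by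
  rw [markov f_markov hQ (A := D \ Z) sdiff_subset hη ind_onZ]
  unfold Pr
  rw [mul_comm, ← Ex_mul_left]
  refine Ex_congr fun S hS => ?_
  by_cases h1 : cf D η S ∈ OnZ Z ζ
  · rw [h S hS h1]
    ring
  · rw [Set.indicator_of_notMem h1]
    ring

/-- Everything open on `Z`. -/
theorem ex_opn (hQ : 0 < Q) (hη : Good η) (F : Cfg → ℝ) :
    Ex Q D η (fun ω => (OnZ Z fun _ => true).indicator 1 ω * F ω) =
      Pr Q D η (OnZ Z fun _ => true) * Ex Q (D \ Z) (opn Z η) F := by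
  refine ex_onZ hQ hη fun S _ h1 => Ex_out (fun v hv => ?_) F
  by_cases hvZ : v ∈ Z
  · rw [h1 v hvZ]
    simp [opn, hvZ]
  · have hvD : v ∉ D := fun h => hv (mem_sdiff.2 ⟨h, hvZ⟩)
    rw [cf_out hvD]
    simp [opn, hvZ]

/-! ### Mixing -/

/-- **Ratio mixing for the configuration on `Z`.** -/
theorem mix_Z (hQ : N.Kit Q) {ε : ℝ} (hε : 0 < ε) : ∃ L : ℤ, 1 ≤ L ∧
    ∀ (D D' : Finset (ℤ × ℤ)) (η η' : Cfg) (t : ℤ × ℤ) (g r : ℤ) (Z : Finset (ℤ × ℤ)) (ζ : Cfg),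
      FlZ D η t g r Z → FlZ D' η' t g r Z → 1 ≤ r → L * r ≤ g →
      |Pr Q D η {ω | ∀ v ∈ Z, ω v = ζ v} - Pr Q D' η' {ω | ∀ v ∈ Z, ω v = ζ v}| ≤
        ε * Pr Q D' η' {ω | ∀ v ∈ Z, ω v = ζ v} := by
  obtain ⟨α, C, hα, hC, hS⟩ := hQ.armShp
  obtain ⟨L₀, hL₀⟩ := hQ.ratS
  obtain ⟨n₀, hn₀⟩ : ∃ n₀ : ℕ, ∀ n : ℕ, n₀ ≤ n → 6 * (C * ((1 : ℝ) / n) ^ α) ≤ ε := by
    have h1 : Filter.Tendsto (fun n : ℕ => 6 * (C * ((1 : ℝ) / n) ^ α)) Filter.atTop (nhds 0) := by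
      have h2 := (tendsto_one_div_atTop_nhds_zero_nat (𝕜 := ℝ)).rpow_const
        (Or.inr hα.le : (0 : ℝ) ≠ 0 ∨ 0 ≤ α)
      rw [Real.zero_rpow hα.ne'] at h2
      have h3 := (h2.const_mul C).const_mul 6
      simpa using h3
    obtain ⟨n₀, hn₀⟩ := Filter.eventually_atTop.1 (h1.eventually_le_const hε)
    exact ⟨n₀, hn₀⟩
  refine ⟨max (max L₀ n₀) 1, le_max_right _ _, ?_⟩
  intro D D' η η' t g r Z ζ h h' hr hL
  have hL1 : L₀ * r ≤ g := le_trans (by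
    refine mul_le_mul_of_nonneg_right ?_ (by omega)
    exact (le_max_left _ _).trans (le_max_left _ _)) hL
  have hL2 : (max n₀ 1 : ℤ) * r ≤ g := le_trans (by
    refine mul_le_mul_of_nonneg_right ?_ (by omega)
    exact max_le ((le_max_right _ _).trans (le_max_left _ _)) (le_max_right _ _)) hL
  have hrg : r ≤ g := by
    have h1 : (1 : ℤ) ≤ max (n₀ : ℤ) 1 := le_max_right _ _
    calc r = 1 * r := (one_mul r).symm
      _ ≤ max (n₀ : ℤ) 1 * r := mul_le_mul_of_nonneg_right h1 (by omega)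
      _ ≤ g := hL2
  have e1 := h.inter
  have e2 := h'.inter
  have hfr : ∀ {D : Finset (ℤ × ℤ)} {η : Cfg}, FlZ D η t g r Z → H192.Q.Fr t g D η := by
    intro D η h v hv hvD
    have hv' := bq_mono (show g ≤ g + 2 by omega) hv
    refine h.cl v hv' ?_
    by_contra hc
    exact hvD ((h.dom v hv').2 (by omega))
  have hsh : H635.Shp D t r g := shp_ge2 (c := t.2) fun v hv =>
    h.dom v (bq_mono (show g ≤ g + 2 by omega) (H635.mem_Ann.1 hv).1)
  have key := N.H192.Q.mix_two hQ hS hL₀ hr hL1 (D := D) (D' := D') (η := η) (η' := η')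
    (by rw [e1, e2]) (h.ZD (by omega)) (h.Bq_sub le_rfl)
    (F := (OnZ Z ζ).indicator 1) (fun _ => ind_nonneg _ _) loc_onZ h.good h'.good (hfr h) (hfr h')
    hsh
  refine key.trans (mul_le_mul_of_nonneg_right ?_ (Pr_nonneg hQ.pos _))
  have hg : (0 : ℝ) < g := by exact_mod_cast (show 0 < g by omega)
  have hr0 : (0 : ℝ) < r := by exact_mod_cast (show 0 < r by omega)
  have h5 : (r : ℝ) / g ≤ 1 / (max n₀ 1 : ℕ) := by
    rw [div_le_div_iff₀ hg (by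
      have : 1 ≤ max n₀ 1 := le_max_right _ _
      exact_mod_cast (show 0 < max n₀ 1 by omega))]
    have h6 : ((max n₀ 1 : ℕ) : ℝ) * r ≤ g := by
      have : ((max n₀ 1 : ℕ) : ℤ) * r ≤ g := by
        rw [Nat.cast_max]
        exact_mod_cast hL2
      exact_mod_cast this
    linarith
  have h7 := hn₀ (max n₀ 1) (le_max_left _ _)
  refine le_trans ?_ h7
  have h8 := Real.rpow_le_rpow (by positivity) h5 hα.le
  nlinarith [mul_le_mul_of_nonneg_left h8 hC.le]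

/-- **Change of measure.** -/
theorem chg (hQ : N.Kit Q) : ∃ L : ℤ, 1 ≤ L ∧ ∀ (D : Finset (ℤ × ℤ)) (η : Cfg)
    (t : ℤ × ℤ) (g r : ℤ) (Z : Finset (ℤ × ℤ)), FlZ D η t g r Z → 1 ≤ r → L * r ≤ g →
    ∀ G : Cfg → ℝ, (∀ ω, 0 ≤ G ω) → Ind (D ∩ Bq t g) G →
      Ex Q (D \ Z) (opn Z η) G ≤ 8 * Ex Q D η G := by
  obtain ⟨L₀, hL₀⟩ := hQ.ratS
  have h2 := hL₀.two
  refine ⟨L₀ * L₀, by nlinarith, ?_⟩
  intro D η t g r Z h hr hL G hG0 hG
  have hrg : r ≤ g := by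
    calc r = 1 * r := (one_mul r).symm
      _ ≤ L₀ * L₀ * r := mul_le_mul_of_nonneg_right (by nlinarith) (by omega)
      _ ≤ g := hL
  have hfr : H192.Q.Fr t g D η := by
    intro v hv hvD
    have hv' := bq_mono (show g ≤ g + 2 by omega) hv
    refine h.cl v hv' ?_
    by_contra hc
    exact hvD ((h.dom v hv').2 (by omega))
  have hsh : H635.Shp D t r g := shp_ge2 (c := t.2) fun v hv =>
    h.dom v (bq_mono (show g ≤ g + 2 by omega) (H635.mem_Ann.1 hv).1)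
  have hZD : Z ⊆ D := h.ZD (by omega)
  have key := (N.H192.Q.rat_bdy_mul hQ hL₀ hr (by rw [← mul_assoc]; exact hL) (D := D) (D' := D)
    (η := η) (η' := η) rfl hZD (h.Bq_sub le_rfl) (F := (OnZ Z fun _ => true).indicator 1)
    (fun _ => ind_nonneg _ _) loc_onZ h.good h.good hfr hfr hG0 hG hsh).1
  have e1 : Ex Q D η (fun ω => G ω * (OnZ Z fun _ => true).indicator 1 ω) =
      Pr Q D η (OnZ Z fun _ => true) * Ex Q (D \ Z) (opn Z η) G := by
    rw [← ex_opn hQ.pos h.good]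
    exact Ex_congr fun S _ => mul_comm _ _
  rw [e1] at key
  have hp : 0 < Pr Q D η (OnZ Z fun _ => true) := onZ_pos hQ.pos hZD
  change _ ≤ 8 * (Ex Q D η G * Pr Q D η (OnZ Z fun _ => true)) at key
  by_contra hc
  push Not at hc
  nlinarith

end Vale.Agent.P167.H627
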