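import Vale.Agent.P167.H627.ErrA

/-!
# P167, `0 < q < 1`, [GEO]: the expectation of a frozen pair

The squares of `Z` may be replaced by open squares: the partition of the even corners of `D \ Z` is the
same for an admissible pair.
-/

set_option autoImplicit false

namespace Vale.Agent.P167.H627

open Finset Relation Vale.Agent.P167.FK Vale.Agent.P167.FKA Vale.Agent.P167.H364
open Vale.Agent.P145.FB (PStep)
open Vale.Agent.P167.H259 (f_markov Ex_out)
open Vale.Agent.P167.H635 (mem_Bq bq_mono shp_ge2)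

variable {Q : ℝ} {D D' Dc B Bx Z S : Finset (ℤ × ℤ)} {η η' ζ ω : Cfg} {t b s w v a : ℤ × ℤ}
  {g r R : ℤ}

theorem pstep_cor {F : Set (ℤ × ℤ)} {x y : ℤ × ℤ} (h : PStep F x y) :
    ∃ w ∈ F, Cor w x ∧ Cor w y :=
  ⟨_, h.2.2, (cor_of_step h).1, (cor_of_step h).2⟩

/-- A square which is not below the line, seen from a site. -/
def Vis (t : ℤ × ℤ) (Z : Finset (ℤ × ℤ)) (s : ℤ × ℤ) : Prop :=
  ∃ w : ℤ × ℤ, w ∉ Z ∧ t.2 ≤ w.2 ∧ Cor w s

/-- An open square off `Z` at a corner of `Z` is above the line. -/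
theorem vis_of (h : FlZ D η t g r Z) (hr : r ≤ g + 1) (hs : ∃ v ∈ Z, Cor v s) (hw : Cor w s)
    (hwZ : w ∉ Z) (ho : w ∈ D ∨ η w = true) : Vis t Z s := by
  refine ⟨w, hwZ, ?_, hw⟩
  have h1 := h.near hr hs hw
  by_contra hc
  rcases ho with ho | ho
  · exact hc ((h.dom w h1).1 ho)
  · have h2 := h.cl w h1 (by omega)
    rw [h2] at ho
    exact absurd ho (by simp)

/-- **The same connections** for the frozen configuration and for `Z` open. -/
theorem pc_opn (h : FlZ D η t g r Z) (hr : r ≤ g + 1) (hA : AdmZ t 1 r Z ζ)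
    {ω : Cfg} (hω : ∀ v, v ∉ D → ω v = η v) (hζ : ∀ v ∈ Z, ω v = ζ v)
    {x y : ℤ × ℤ} (hx : Even (x.1 + x.2)) (hxv : (∃ v ∈ Z, Cor v x) → Vis t Z x)
    (hyv : (∃ v ∈ Z, Cor v y) → Vis t Z y) :
    PC (cf (D \ Z) ω S) x y ↔ PC (cf (D \ Z) (opn Z η) S) x y := by
  constructor
  · intro h1
    refine H816.PC_mono (fun v hv => ?_) h1
    by_cases hvD : v ∈ D \ Z
    · rw [H519.cf_in hvD] at hv ⊢
      exact hv
    · rw [cf_out hvD] at hv ⊢
      rw [opn_true]
      by_cases hvZ : v ∈ Z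
      · exact Or.inl hvZ
      · right
        rw [← hω v fun h2 => hvD (mem_sdiff.2 ⟨h2, hvZ⟩)]
        exact hv
  · intro h1
    -- the invariant
    have key : ∀ y, PC (cf (D \ Z) (opn Z η) S) x y → Even (y.1 + y.2) ∧
        (((∃ v ∈ Z, Cor v y) → Vis t Z y) → PC (cf (D \ Z) ω S) x y) ∧
        ((∃ v ∈ Z, Cor v y) → ∃ y', Even (y'.1 + y'.2) ∧ (∃ v ∈ Z, Cor v y') ∧ Vis t Z y' ∧
          PC (cf (D \ Z) ω S) x y') := by
      intro y hy
      unfold PC at hy
      induction hy with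
      | refl =>
        exact ⟨hx, fun _ => ReflTransGen.refl, fun hz => ⟨x, hx, hz, hxv hz, ReflTransGen.refl⟩⟩
      | @tail y z _ hyz ih =>
        obtain ⟨i1, i2, i3⟩ := ih
        have hze : Even (z.1 + z.2) := (FKA.even_step hyz).1 i1
        obtain ⟨c1, c2⟩ := cor_of_step hyz
        have hm := hyz.2.2
        change cf (D \ Z) (opn Z η) S (min y.1 z.1, min y.2 z.2) = true at hm
        set m := (min y.1 z.1, min y.2 z.2) with hmd
        by_cases hmZ : m ∈ Z
        · obtain ⟨y', j1, j2, j3, j4⟩ := i3 ⟨m, hmZ, c1⟩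
          refine ⟨hze, fun hz => ?_, fun _ => ⟨y', j1, j2, j3, j4⟩⟩
          obtain ⟨w1, w2, w3, w4⟩ := hz ⟨m, hmZ, c2⟩
          obtain ⟨u1, u2, u3, u4⟩ := j3
          have hc := hA.conn y' (BR.mem_sites.2 j2) z (BR.mem_sites.2 ⟨m, hmZ, c2⟩) j1 hze
            ⟨u1, u2, u3, BR.mem_sites.2 ⟨u1, mem_singleton_self _, u4⟩⟩
            ⟨w1, w2, w3, BR.mem_sites.2 ⟨w1, mem_singleton_self _, w4⟩⟩
          refine j4.trans (ReflTransGen.mono (fun p q hpq => ⟨hpq.1, hpq.2.1, ?_⟩) _ _ hc)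
          have h5 := hpq.2.2
          have h6 : (min p.1 q.1, min p.2 q.2) ∈ Z := mem_coe.1 h5.2
          show cf (D \ Z) ω S _ = true
          rw [cf_out fun h7 => (mem_sdiff.1 h7).2 h6, hζ _ h6]
          exact h5.1
        · -- the square is not in `Z`
          have hmo : m ∈ D ∨ η m = true := by
            by_cases hmD : m ∈ D
            · exact Or.inl hmD
            · right
              rw [cf_out fun h7 => hmD (mem_sdiff.1 h7).1, opn_true] at hm
              exact hm.resolve_left hmZ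
          have hmω : cf (D \ Z) ω S m = true := by
            by_cases hmD : m ∈ D \ Z
            · rw [H519.cf_in hmD] at hm ⊢
              exact hm
            · have hmD' : m ∉ D := fun h7 => hmD (mem_sdiff.2 ⟨h7, hmZ⟩)
              rw [cf_out hmD, opn_true] at hm
              rw [cf_out hmD, hω m hmD']
              exact hm.resolve_left hmZ
          have hy1 : PC (cf (D \ Z) ω S) x y := i2 fun hz => vis_of h hr hz c1 hmZ hmo
          have hz1 : PC (cf (D \ Z) ω S) x z := hy1.tail ⟨hyz.1, hyz.2.1, hmω⟩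
          exact ⟨hze, fun _ => hz1, fun hz => ⟨z, hze, hz, vis_of h hr hz c2 hmZ hmo, hz1⟩⟩
    exact (key y h1).2.1 hyv

/-- The law off `Z`. -/
theorem ex_frz (hQ : 0 < Q) (h : FlZ D η t g r Z) (hr : r ≤ g + 1) (hA : AdmZ t 1 r Z ζ)
    {ω : Cfg} (hg : Good ω) (hω : ∀ v, v ∉ D → ω v = η v) (hζ : ∀ v ∈ Z, ω v = ζ v)
    {F : Cfg → ℝ} (hF : Loc (D \ Z) F) : Ex Q (D \ Z) ω F = Ex Q (D \ Z) (opn Z η) F := by
  refine H167.Q.Ex_eq_of_PC hQ hg (good_opn h.good) (fun S _ a ha _ => ?_) hF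
  obtain ⟨ha1, ha2⟩ := mem_sdiff.1 ha
  exact pc_opn h hr hA hω hζ (H816.even_pa a)
    (fun hz => vis_of h hr hz (cor_pa a) ha2 (Or.inl ha1))
    (fun hz => vis_of h hr hz (cor_pb a) ha2 (Or.inl ha1))

/-- **The expectation of a frozen pair.** -/
theorem fz_split (hQ : 0 < Q) {W : Set (ℤ × ℤ)} (h : FlZ D η t g r Z) (hr : r + 4 ≤ g)
    (hA : AdmZ t 1 r Z ζ)
    (hJ : ∀ ω : Cfg, (∀ v, v ∉ D → ω v = η v) →
      (BR.Jn true (Dc \ Z) ω (↑(BR.sites Z)) W ↔ PC (opn Z ω) t b)) :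
    Ex Q D η (fzZ Dc Z ζ W) =
      Pr Q D η {ω | ∀ v ∈ Z, ω v = ζ v} * Pr Q (D \ Z) (opn Z η) {ω | PC ω t b} := by
  classical
  -- the event, read in `D \ Z`
  set P : Cfg → Cfg := fun ω v => if v ∈ D \ Z then ω v else opn Z η v with hP
  set F : Cfg → ℝ := fun ω => {ω | PC ω t b}.indicator 1 (P ω) with hF
  have hFl : Loc (D \ Z) F := by
    intro ω ω' hw
    have e : P ω = P ω' := by
      funext v
      simp only [hP]
      split_ifs with h1
      · exact hw v h1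
      · rfl
    show {ω | PC ω t b}.indicator (1 : Cfg → ℝ) (P ω) = {ω | PC ω t b}.indicator 1 (P ω')
    rw [e]
  have e1 : Ex Q D η (fzZ Dc Z ζ W) =
      Ex Q D η (fun ω => (OnZ Z ζ).indicator 1 ω * F ω) := by
    refine Ex_congr fun S hS => ?_
    have hωo : ∀ v, v ∉ D → cf D η S v = η v := fun v hv => cf_out hv
    have e2 : P (cf D η S) = opn Z (cf D η S) := by
      funext v
      simp only [hP, opn]
      by_cases hvZ : v ∈ Z
      · rw [if_neg fun h1 => (mem_sdiff.1 h1).2 hvZ, if_pos hvZ, if_pos hvZ]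
      · by_cases hvD : v ∈ D
        · rw [if_pos (mem_sdiff.2 ⟨hvD, hvZ⟩), if_neg hvZ]
        · rw [if_neg fun h1 => hvD (mem_sdiff.1 h1).1, if_neg hvZ, if_neg hvZ, hωo v hvD]
    show fzZ Dc Z ζ W (cf D η S) = (OnZ Z ζ).indicator 1 (cf D η S) *
      {ω | PC ω t b}.indicator 1 (P (cf D η S))
    rw [e2]
    unfold fzZ
    by_cases h1 : cf D η S ∈ OnZ Z ζ
    · rw [Set.indicator_of_mem h1]
      by_cases h2 : PC (opn Z (cf D η S)) t b
      · rw [Set.indicator_of_mem (show opn Z (cf D η S) ∈ {ω | PC ω t b} from h2),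
          if_pos ⟨h1, (hJ _ hωo).2 h2⟩]
        simp
      · rw [Set.indicator_of_notMem (show opn Z (cf D η S) ∉ {ω | PC ω t b} from h2),
          if_neg fun h3 => h2 ((hJ _ hωo).1 h3.2)]
        simp
    · rw [Set.indicator_of_notMem h1, if_neg fun h3 => h1 h3.1]
      simp
  have e3 : Ex Q (D \ Z) (opn Z η) F = Pr Q (D \ Z) (opn Z η) {ω | PC ω t b} := by
    refine Ex_congr fun S hS => ?_
    show {ω | PC ω t b}.indicator 1 (P (cf (D \ Z) (opn Z η) S)) = _
    congr 1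
    funext v
    simp only [hP]
    split_ifs with h1
    · rfl
    · rw [cf_out h1]
  rw [e1, ← e3]
  refine ex_onZ hQ h.good fun S hS h1 => ?_
  exact ex_frz hQ h (by omega) hA (good_cf D h.good S) (fun v hv => cf_out hv) h1 hFl

end Vale.Agent.P167.H627
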